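import Crest.Agent.X212.Pj41.Cm
import Crest.Agent.X212.Wz78.Par
import Crest.Agent.X212.Std94.Smo

/-!
# X212 / LOCINT (helper66), part 1: local invariance of `kd`, mixing, cut and paste on a closed
manifold
-/

set_option autoImplicit false
set_option linter.unusedSectionVars false

open Set Function Filter Topology MeasureTheory
open scoped ContDiff Manifold InnerProductSpace

namespace Crest.Agent.X212.Loc66

open An Sob92 Pj41
open Wz78 (curv pg_mem pg_mul_p)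
open Eqv71 (cj)

noncomputable section

variable {E : Type} [NormedAddCommGroup E] [NormedSpace ℝ E] [FiniteDimensional ℝ E]
  [MeasurableSpace E] [BorelSpace E]
  {HM : Type} [TopologicalSpace HM] {I : ModelWithCorners ℝ E HM}
  {M : Type} [TopologicalSpace M] [ChartedSpace HM M] [IsManifold I ∞ M]
  [MeasurableSpace M] {ι : Type} [Fintype ι] {lam : Type} [Fintype lam]
  {B : Base M ι lam} {G : Geo I M ι lam} {m m' : Md M ι lam} {O O' : Set M}
  {u : M → CL m.V m'.V} {x : M} {W V : m.Cn} {W' : m'.Cn}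

theorem cj_mem (h : Iso0 I m m' O u) (hm : OKOn I B m O) (hm' : OKOn I B m' O) (hx : x ∈ O)
    {ξ : m.A} (hξ : ξ ∈ m.gS x) : cj (u x) ξ ∈ m'.gS x := by
  obtain ⟨h1, h2, h3, h4, h5⟩ := hξ
  have s := h.symm hm hm'
  have key : ∀ {A : En (Fin m.N)} {A' : En (Fin m'.N)}, A' ∘L u x = u x ∘L A →
      A ∘L ad (u x) = ad (u x) ∘L A' → A * opL ξ = opL ξ * A →
      A' * opL (cj (u x) ξ) = opL (cj (u x) ξ) * A' := by
    intro A A' k1 k2 k3
    rw [ad_trn] at k2
    ext1 w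
    have k1' : ∀ a, A' (u x a) = u x (A a) := fun a => congrArg (fun T : CL m.V m'.V => T a) k1
    have k2' : ∀ a, trn (u x) (A' a) = A (trn (u x) a) := fun a =>
      (congrArg (fun T : CL m'.V m.V => T a) k2).symm
    have k3' : ∀ a, A (opL ξ a) = opL ξ (A a) := fun a => congrArg (fun T : En _ => T a) k3
    simp only [Eqv71.opL_cj, mul_apply_eq_comp, ContinuousLinearMap.comp_apply, k1', k2', k3']
  refine ⟨fun a b => ?_, ?_, key (h.J x hx) (s.J x hx) h3,
    fun b => key (h.ρ x hx b) (s.ρ x hx b) (h4 b), fun t => key (h.j x hx t) (s.j x hx t) (h5 t)⟩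
  · simp only [Eqv71.opL_cj, ContinuousLinearMap.comp_apply, ← Eqv71.inner_trn' (u x), h1 _ _,
      Eqv71.inner_trn (u x)]
  · rw [Eqv71.opL_cj, ContinuousLinearMap.mul_def, ← ContinuousLinearMap.comp_assoc,
      (h.iso x hx).left]

theorem pg_cj (h : Iso0 I m m' O u) (hm : OKOn I B m O) (hm' : OKOn I B m' O) (hx : x ∈ O)
    (ξ : m.A) : m'.pg x (cj (u x) ξ) = cj (u x) (m.pg x ξ) :=
  Eqv71.proj_comm (Eqv71.inner_cj (u x)) (fun _ ha => cj_mem h hm hm' hx ha)
    (fun _ hb => by rw [← ad_trn]; exact cj_mem (h.symm hm hm') hm' hm hx hb) ξ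

theorem Fg_loc {F : Fr I M ι} (h : Iso0 I m m' O u) (hO : IsOpen O) (hm : OKOn I B m O)
    (hm' : OKOn I B m' O) (hW : ∀ a, FSm I (W a) x) (hW' : ∀ a, FSm I (W' a) x)
    (hp : Par0 F W W' O u) (hx : x ∈ O) (s : ι × ι) :
    m'.Fg F W' x s = cj (u x) (m.Fg F W x s) := by
  have k := Eqv71.itw_curv (Wz78.frm F) (A := W) (B := W') (u := u)
    ((hO.eventually_mem hx).mono fun y hy a => sub_eq_zero.1 (hp y hy a)) (h.su x hx) hW hW' s.1 s.2
  have k' : curv I F.e F.c W' s.1 s.2 x * m'.p x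
      = u x ∘L curv I F.e F.c W s.1 s.2 x ∘L trn (u x) := by
    rw [← (h.iso x hx).tgt, ad_trn, ← ContinuousLinearMap.comp_assoc, ← k]; rfl
  simp only [Md.Fg]
  rw [← pg_mul_p, k', ← Eqv71.cj_hsL, pg_cj h hm hm' hx]

theorem inner_cj_g (h : Iso0 I m m' O u) (hx : x ∈ O) (ξ : m.A) {η : m.A} (hη : η ∈ m.gS x) :
    ⟪cj (u x) ξ, cj (u x) η⟫_ℝ = ⟪ξ, η⟫_ℝ := by
  rw [Eqv71.inner_cj, Eqv71.cj_cj, ← ad_trn, (h.iso x hx).src, Eqv71.ME.cj_p hη]

theorem kd_eq (m : Md M ι lam) (F : Fr I M ι) (W : m.Cn) (x : M) :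
    m.kd B F W x = -(128 * Real.pi ^ 2)⁻¹ *
      ∑ s, ∑ t, B.st x s t * ⟪m.Fg F W x s, m.Fg F W x t⟫_ℝ := by
  rw [Md.kd, PiLp.inner_apply]
  simp only [Eqv71.idx_apply, inner_sum, real_inner_smul_right, ContinuousLinearMap.id_apply]

theorem Fg_mem (F : Fr I M ι) (W : m.Cn) (x : M) (s : ι × ι) : m.Fg F W x s ∈ m.gS x := pg_mem x _

/-- **`kd` is invariant under local parallel isomorphisms** -/
theorem kd_loc {F : Fr I M ι} (h : Iso0 I m m' O u) (hO : IsOpen O) (hm : OKOn I B m O)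
    (hm' : OKOn I B m' O) (hW : ∀ a, FSm I (W a) x) (hW' : ∀ a, FSm I (W' a) x)
    (hp : Par0 F W W' O u) (hx : x ∈ O) : m'.kd B F W' x = m.kd B F W x := by
  simp only [kd_eq, Fg_loc h hO hm hm' hW hW' hp hx, inner_cj_g h hx _ (Fg_mem F W x _)]

theorem norm_Fg_loc {F : Fr I M ι} (h : Iso0 I m m' O u) (hO : IsOpen O) (hm : OKOn I B m O)
    (hm' : OKOn I B m' O) (hW : ∀ a, FSm I (W a) x) (hW' : ∀ a, FSm I (W' a) x)
    (hp : Par0 F W W' O u) (hx : x ∈ O) : ‖m'.Fg F W' x‖ ^ 2 = ‖m.Fg F W x‖ ^ 2 := by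
  rw [PiLp.norm_sq_eq_of_L2, PiLp.norm_sq_eq_of_L2]
  simp only [← real_inner_self_eq_norm_sq, Fg_loc h hO hm hm' hW hW' hp hx,
    inner_cj_g h hx _ (Fg_mem F W x _)]

theorem Fg_congr {F : Fr I M ι} (e : ∀ a, W a =ᶠ[𝓝 x] V a) : m.Fg F W x = m.Fg F V x := by
  simp only [Md.Fg, curv, dv_congr (e _), fun a => (e a).eq_of_nhds]

theorem kd_congr {F : Fr I M ι} (e : ∀ a, W a =ᶠ[𝓝 x] V a) : m.kd B F W x = m.kd B F V x := by
  simp only [Md.kd, Fg_congr e]

/-! ### mixing -/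

/-- `W` where `χ = 0`, `V` where `χ = 1` -/
def mix (χ : M → ℝ) (W V : m.Cn) : m.Cn := fun a x => W a x + χ x • (V a x - W a x)

theorem mix_eq (χ : M → ℝ) (W V : m.Cn) (a : ι) (x : M) :
    mix χ W V a x = (1 - χ x) • W a x + χ x • V a x := by
  simp only [mix]; module

theorem mix_zero {χ : M → ℝ} (h : x ∉ tsupport χ) (W V : m.Cn) (a : ι) :
    mix χ W V a =ᶠ[𝓝 x] W a :=
  (notMem_tsupport_iff_eventuallyEq.1 h).mono fun y hy => by simp [mix, hy]

theorem mix_one {χ : M → ℝ} (h : ∀ᶠ y in 𝓝 x, χ y = 1) (W V : m.Cn) (a : ι) :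
    mix χ W V a =ᶠ[𝓝 x] V a := h.mono fun y hy => by simp [mix, hy]

theorem aff {X : Type*} [AddCommGroup X] [Module ℝ X] {d p q c : X} (t : ℝ) (h1 : d + p = c)
    (h2 : d + q = c) : d + ((1 - t) • p + t • q) = c := by
  rw [eq_sub_of_add_eq' h1, eq_sub_of_add_eq' h2]; module

theorem connOn_mix0 {χ : M → ℝ} (hχ : ∀ x ∈ O, FSm I χ x) (h : ConnOn B G m W O)
    (k : ConnOn B G m V O) : ConnOn B G m (mix χ W V) O := by
  have br : ∀ (t : ℝ) (A C T : En (Fin m.N)), ((1 - t) • A + t • C) * T - T * ((1 - t) • A + t • C)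
      = (1 - t) • (A * T - T * A) + t • (C * T - T * C) := fun t A C T => by
    simp only [add_mul, mul_add, smul_mul_assoc, mul_smul_comm]; module
  refine ⟨fun a x hx => (h.sm a x hx).add ((hχ x hx).smul ((k.sm a x hx).sub (h.sm a x hx))),
    fun a x hx => ?_, fun a x hx => ?_, fun a b x hx => ?_, fun a x hx v w => ?_,
    fun a x hx => ?_, fun a x hx s => ?_⟩ <;> simp only [mix_eq]
  · simp only [smul_add, Finset.sum_add_distrib, smul_comm (B.P a _ x), ← Finset.smul_sum,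
      h.proj a x hx, k.proj a x hx]
  · rw [br]; exact aff _ (h.par a x hx) (k.par a x hx)
  · rw [br]; exact aff _ (h.comp a b x hx) (k.comp a b x hx)
  · simp only [add_apply, smul_apply, inner_add_left, inner_add_right, real_inner_smul_left,
      real_inner_smul_right, h.sk a x hx v w, k.sk a x hx v w]; ring
  · simp only [add_mul, mul_add, smul_mul_assoc, mul_smul_comm, h.J a x hx, k.J a x hx]
  · rw [br]; exact aff _ (h.j a x hx s) (k.j a x hx s)

/-- `W` is needed only where `χ` is not locally `1`, `V` only on the support of `χ` -/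
theorem connOn_mix {χ : M → ℝ} {O₁ O₂ : Set M} (hχ : Sm I χ) (o1 : IsOpen O₁) (o2 : IsOpen O₂)
    (h : ConnOn B G m W O₁) (k : ConnOn B G m V O₂)
    (c1 : ∀ x ∈ O, x ∈ O₁ ∨ (x ∈ O₂ ∧ ∀ᶠ y in 𝓝 x, χ y = 1))
    (c2 : ∀ x ∈ O, x ∈ O₂ ∨ x ∉ tsupport χ) : ConnOn B G m (mix χ W V) O := by
  refine ConnOn.of_local fun x hx => ?_
  rcases c1 x hx with h1 | ⟨h2, h3⟩
  · rcases c2 x hx with h2 | h3
    · exact ⟨O₁ ∩ O₂, ⟨h1, h2⟩, connOn_mix0 (fun y _ => hχ y) (h.mono inter_subset_left)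
        (k.mono inter_subset_right)⟩
    · exact ⟨O₁ ∩ (tsupport χ)ᶜ, ⟨h1, h3⟩, (h.mono inter_subset_left).congr
        (o1.inter (isClosed_tsupport χ).isOpen_compl) fun a y hy =>
          (mix_zero hy.2 W V a).eq_of_nhds⟩
  · exact ⟨O₂ ∩ {y | ∀ᶠ z in 𝓝 y, χ z = 1}, ⟨h2, h3⟩, (k.mono inter_subset_left).congr
      (o2.inter isOpen_setOfPred_eventually_nhds) fun a y hy => (mix_one hy.2 W V a).eq_of_nhds⟩

/-! ### gluing two pieces -/

theorem glue2 [T2Space M] [SigmaCompactSpace M] (hO : IsOpen O) (hO' : IsOpen O')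
    (hc : ∀ x, x ∈ O ∨ x ∈ O') (hm : OKOn I B m O) (hm' : OKOn I B m' O') (hG : G.F.P = B.P)
    (hW : ConnOn B G m W O) (hW' : ConnOn B G m' W' O') (h : Iso0 I m m' (O ∩ O') u)
    (hp : Par0 G.F W W' (O ∩ O') u) :
    ∃ (n : Md M ι lam) (a : M → CL m.V n.V) (a' : M → CL m'.V n.V) (X : n.Cn), n.OK I B ∧
      n.IsConn B G X ∧ Iso0 I m n O a ∧ Iso0 I m' n O' a' ∧ Par0 G.F W X O a ∧
      Par0 G.F W' X O' a' ∧ ∀ x ∈ O ∩ O', a' x ∘L u x = a x := by
  let Oi : Bool → Set M := fun b => Bool.rec O' O b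
  let mi : Bool → Md M ι lam := fun b => Bool.rec m' m b
  let ui : ∀ i j, M → CL (mi j).V (mi i).V := fun i j => match i, j with
    | true, true => m.p
    | false, false => m'.p
    | false, true => u
    | true, false => fun x => ad (u x)
  let Wi : ∀ i, (mi i).Cn := fun i => match i with
    | true => W
    | false => W'
  have s := h.symm (hm.mono inter_subset_left) (hm'.mono inter_subset_right)
  have hC : MCoc I B Oi mi ui := by
    refine ⟨fun i => ?_, fun x => (hc x).elim (fun h => ⟨true, h⟩) fun h => ⟨false, h⟩,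
      fun i => ?_, fun i j => ?_, fun i j l x hi hj hl => ?_⟩
    · cases i; exacts [hO', hO]
    · cases i; exacts [hm', hm]
    · cases i <;> cases j
      · exact (Iso0.refl hm').mono inter_subset_left
      · exact h.mono fun _ hx => ⟨hx.2, hx.1⟩
      · exact s
      · exact (Iso0.refl hm).mono inter_subset_left
    · cases i <;> cases j <;> cases l
      · exact hm'.pidem x hi
      · exact (h.iso x ⟨hl, hi⟩).left
      · exact (h.iso x ⟨hj, hi⟩).tgt
      · exact (h.iso x ⟨hj, hi⟩).idem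
      · exact (h.iso x ⟨hi, hj⟩).symm.idem
      · exact (h.iso x ⟨hi, hj⟩).src
      · exact (h.iso x ⟨hi, hl⟩).symm.left
      · exact hm.pidem x hi
  obtain ⟨n, a, X, Φ, h1, h2, -, h3, h4⟩ := cfg_glue hC hG (Wi := Wi)
    (fun i => by cases i; exacts [hW', hW]) (fun i j => by
      cases i <;> cases j
      · exact hW'.par0_refl.mono inter_subset_left
      · exact hp.mono fun _ hx => ⟨hx.2, hx.1⟩
      · exact hp.symm h.su (fun a x hx => hW.sk a x hx.1) fun a x hx => hW'.sk a x hx.2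
      · exact hW.par0_refl.mono inter_subset_left)
    (Φi := fun _ _ => 0) (fun _ _ _ => contMDiffAt_const) fun _ _ _ _ _ => map_zero _
  exact ⟨n, a true, a false, X, h1, h2, (h3 true).1, (h3 false).1, (h3 true).2.1, (h3 false).2.1,
    fun x hx => (h4 false true x hx.2 hx.1).2⟩

theorem sm_kd (hB : B.OK I) (hG : G.OK B) (hm : m.OK I B) (hW : m.IsConn B G W) :
    Sm I (m.kd B G.F W) := fun x => by
  have h1 := fun s => Wz78.sm_Fg hG hW (Std94.sm_pg hB hm) s x
  have : m.kd B G.F W = fun x => -(128 * Real.pi ^ 2)⁻¹ *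
      ∑ s, ∑ t, B.st x s t * ⟪m.Fg G.F W x s, m.Fg G.F W x t⟫_ℝ := funext (kd_eq m G.F W)
  rw [this]
  refine FSm.mul' contMDiffAt_const (FSm.sum' fun s _ => FSm.sum' fun t _ => FSm.mul' ?_ ?_)
  · exact FSm.mul' (hB.so _ _ _ _ x) (contMDiffAt_const (c := (2 : ℝ)⁻¹))
  · exact ((innerSL ℝ).contDiff.contDiffAt.comp_contMDiffAt (h1 s)).clm_apply (h1 t)

variable (B G) in
/-- the levels of two modules differ by an integer -/
def KI : Prop := ∀ (m m' : Md M ι lam) (W : m.Cn) (W' : m'.Cn), m.OK I B → m'.OK I B →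
  m.IsConn B G W → m'.IsConn B G W' → ∃ k : ℤ, m.kap B G.F W - m'.kap B G.F W' = k

/-- **cut and paste on a closed manifold** -/
theorem int_closed [T2Space M] [CompactSpace M] [BorelSpace M] (hB : B.OK I) (hG : G.OK B)
    (ki : KI B G) {K : Set M} (hK : IsClosed K) (hO : IsOpen O) (hKO : K ⊆ O)
    (hm : OKOn I B m O) (hW : ConnOn B G m W O) (hm' : m'.OK I B) (hW' : m'.IsConn B G W')
    (h : Iso0 I m m' (O \ K) u) (hp : Par0 G.F W W' (O \ K) u) :
    ∃ k : ℤ, ∫ x in K, m.kd B G.F W x ∂G.F.μ - ∫ x in K, m'.kd B G.F W' x ∂G.F.μ = k := by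
  obtain ⟨n, a, a', X, h1, h2, h3, h4, h5, h6, -⟩ := glue2 hO hK.isOpen_compl
    (fun x => (em (x ∈ K)).elim (fun h => .inl (hKO h)) .inr) hm (OK.on hm' _) hG.P hW
    (IsConn.on hW' _) h hp
  obtain ⟨k, hk⟩ := ki n m' X W' h1 hm' h2 hW'
  have i1 := (sm_kd hB hG h1 h2).continuous.integrable_of_hasCompactSupport (μ := G.F.μ)
    (HasCompactSupport.of_compactSpace _)
  have i2 := (sm_kd hB hG hm' hW').continuous.integrable_of_hasCompactSupport (μ := G.F.μ)
    (HasCompactSupport.of_compactSpace _)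
  refine ⟨k, ?_⟩
  rw [← hk, Md.kap, Md.kap, ← integral_add_compl hK.measurableSet i1,
    ← integral_add_compl hK.measurableSet i2,
    setIntegral_congr_fun hK.measurableSet (f := n.kd B G.F X) (g := m.kd B G.F W) fun x hx =>
      kd_loc h3 hO hm (OK.on h1 _) (fun b => hW.sm b x (hKO hx)) (fun b => h2.cc.sm b x) h5
        (hKO hx),
    setIntegral_congr_fun hK.measurableSet.compl (f := n.kd B G.F X) (g := m'.kd B G.F W')
      fun x hx => kd_loc h4 hK.isOpen_compl (OK.on hm' _) (OK.on h1 _)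
        (fun b => hW'.cc.sm b x) (fun b => h2.cc.sm b x) h6 hx]
  ring

end

end Crest.Agent.X212.Loc66
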