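import Crest.Agent.X212.Cmp73.Cv
import Crest.Agent.X212.Met55.Vol
import Crest.Agent.X212.Loc66.Paste

/-!
# X212 / LOCINT (helper66), part 3: converging frames
-/

set_option autoImplicit false
set_option linter.unusedSectionVars false

open Set Function Filter Topology MeasureTheory Module
open scoped ContDiff Manifold InnerProductSpace

namespace Crest.Agent.X212.Loc66

open An Sob92 Pj41 Met55 Cmp73
open Wz78 (curv)

noncomputable section

section alg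
variable {E : Type} [NormedAddCommGroup E] [NormedSpace ℝ E] [FiniteDimensional ℝ E]
  {ι n : Type} [Fintype ι] [Fintype n] [DecidableEq n] (b : Basis n ℝ E)

theorem msm_fm0 (z : (ι → E) × E) : MSm 𝓘(ℝ, (ι → E) × E) (fun z => fm b z.1) z := fun i a =>
  ((b.coord i).toContinuousLinearMap.contDiff.comp
    (by fun_prop : ContDiff ℝ ∞ fun z : (ι → E) × E => z.1 a)).contMDiff z

theorem ev_det {z : (ι → E) × E} (h : Sp z.1) : ∀ᶠ w in 𝓝 z, 0 < (gm b w.1).det :=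
  ((msm_fm0 b z).mul (msm_fm0 b z).transpose).det.continuousAt.eventually (lt_mem_nhds h.det_pos)

theorem cd_th {z : (ι → E) × E} (h : Sp z.1) (a : ι) :
    ∀ᶠ w in 𝓝 z, ContDiffAt ℝ ∞ (fun w : (ι → E) × E => th b w.1 w.2 a) w :=
  (ev_det b h).mono fun w hw => (((msm_fm0 b w).transpose.mul (((msm_fm0 b w).mul
    (msm_fm0 b w).transpose).inv hw.ne')).mulVec (v := fun z i => b.repr z.2 i) (fun i =>
      ((b.coord i).toContinuousLinearMap.contDiff.comp contDiff_snd).contMDiff w) a).contDiffAt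

theorem cd_rjb {z : (ι → E) × E} (h : Sp z.1) :
    ∀ᶠ w in 𝓝 z, ContDiffAt ℝ ∞ (fun w : (ι → E) × E => rjb b w.1) w :=
  (ev_det b h).mono fun w hw => ((Real.contDiffAt_sqrt hw.ne').comp w
    ((msm_fm0 b w).mul (msm_fm0 b w).transpose).det.contDiffAt).inv (Real.sqrt_pos.2 hw).ne'

end alg

variable {E : Type} [NormedAddCommGroup E] [NormedSpace ℝ E] [FiniteDimensional ℝ E]
  [MeasurableSpace E] [BorelSpace E]
  {HM : Type} [TopologicalSpace HM] {I : ModelWithCorners ℝ E HM} [I.Boundaryless]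
  {M : Type} [TopologicalSpace M] [ChartedSpace HM M] [IsManifold I ∞ M]
  [MeasurableSpace M] {ι : Type} [Fintype ι] {lam : Type} [Fintype lam]
  {α : Type} {l : Filter α} {Ω : Set M}
  {N : Type} [NormedAddCommGroup N] [NormedSpace ℝ N] [FiniteDimensional ℝ N]

variable (l Ω) in
/-- smooth convergence of vector fields -/
structure VCv (X : α → VF I M) (Y : VF I M) : Prop where
  mb : ∀ k, ∀ x ∈ Ω, MB I l x k fun n => dv I (X n) (extChartAt I x)
  pt : ∀ x ∈ Ω, Tendsto (fun n => dv I (X n) (extChartAt I x) x) l (𝓝 (dv I Y (extChartAt I x) x))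

theorem VCv.fixed {Y : VF I M} (h : ∀ x, VAt I Y x) : VCv l Ω (fun _ => Y) Y :=
  ⟨fun _ _ _ => MB.vf (.of_forall h), fun _ _ => tendsto_const_nhds⟩

theorem VCv.mono {X : α → VF I M} {Y : VF I M} (h : VCv l Ω X Y) {l' : Filter α} (hl : l' ≤ l)
    {Ω' : Set M} (hΩ : Ω' ⊆ Ω) : VCv l' Ω' X Y :=
  ⟨fun k x hx => (h.mb k x (hΩ hx)).mono hl, fun x hx => (h.pt x (hΩ hx)).mono_left hl⟩

variable [l.NeBot]

theorem VCv.dv {X : α → VF I M} {Y : VF I M} (h : VCv l Ω X Y) (hΩ : IsOpen Ω) {f : α → M → N}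
    {g : M → N} (hf : Cv I l Ω f g) : Cv I l Ω (fun n => dv I (X n) (f n)) (dv I Y g) :=
  hf.dv hΩ h.mb h.pt

theorem op_src (hΩ : IsOpen Ω) (p : M) : IsOpen (Ω ∩ (chartAt HM p).source) :=
  hΩ.inter (chartAt HM p).open_source

theorem VCv.chart {X : α → VF I M} {Y : VF I M} (h : VCv l Ω X Y) (hΩ : IsOpen Ω) (p : M) :
    Cv I l (Ω ∩ (chartAt HM p).source) (fun n => Sob92.dv I (X n) (extChartAt I p))
      (Sob92.dv I Y (extChartAt I p)) :=
  (h.mono le_rfl inter_subset_left).dv (op_src hΩ p)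
    (Cv.fixed (op_src hΩ p) fun _ hx => contMDiffAt_extChartAt' hx.2)

theorem cv_of_chart {f : α → M → N} {g : M → N}
    (h : ∀ p ∈ Ω, Cv I l (Ω ∩ (chartAt HM p).source) f g) : Cv I l Ω f g :=
  Cv.of_local fun p hp => ⟨_, mem_inter hp (mem_chart_source HM p), h p hp⟩

theorem VCv.br {X X' : α → VF I M} {Y Y' : VF I M} (h : VCv l Ω X Y) (h' : VCv l Ω X' Y')
    (hΩ : IsOpen Ω) (s : ∀ n x, VAt I (X n) x) (s' : ∀ n x, VAt I (X' n) x) (t : ∀ x, VAt I Y x)
    (t' : ∀ x, VAt I Y' x) : VCv l Ω (fun n => br I (X n) (X' n)) (br I Y Y') := by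
  have key := fun p => (((h.mono le_rfl inter_subset_left).dv (op_src hΩ p) (h'.chart hΩ p)).sub
    ((h'.mono le_rfl inter_subset_left).dv (op_src hΩ p) (h.chart hΩ p))).congr' (op_src hΩ p)
    (f' := fun n => Sob92.dv I (Met55.br I (X n) (X' n)) (extChartAt I p))
    (g' := Sob92.dv I (Met55.br I Y Y') (extChartAt I p))
    (.of_forall fun n x hx => dv_br (s n x) (s' n x) ((contMDiffAt_extChartAt' hx.2).of_le two_le))
    fun x hx => dv_br (t x) (t' x) ((contMDiffAt_extChartAt' hx.2).of_le two_le)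
  exact ⟨fun k x hx => (key x).mb k x ⟨hx, mem_chart_source HM x⟩,
    fun x hx => (key x).pt x ⟨hx, mem_chart_source HM x⟩⟩

variable (l Ω) in
/-- smooth convergence of frames -/
def FCv (F : α → Fr I M ι) (F₀ : Fr I M ι) : Prop := ∀ a, VCv l Ω (fun n => (F n).e a) (F₀.e a)

namespace FCv
variable {F : α → Fr I M ι} {F₀ : Fr I M ι}

theorem fixed : FCv l Ω (fun _ => F₀) F₀ := fun a => VCv.fixed (F₀.sm a)

theorem mono (h : FCv l Ω F F₀) {l' : Filter α} (hl : l' ≤ l) {Ω' : Set M} (hΩ : Ω' ⊆ Ω) :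
    FCv l' Ω' F F₀ := fun a => (h a).mono hl hΩ

variable (h : FCv l Ω F F₀) (hΩ : IsOpen Ω)
include h hΩ

theorem D {f : α → M → N} {g : M → N} (hf : Cv I l Ω f g) (a : ι) :
    Cv I l Ω (fun n => (F n).D a (f n)) (F₀.D a g) := (h a).dv hΩ hf

theorem fT {X : α → VF I M} {Y : VF I M} (hX : VCv l Ω X Y) (a : ι) :
    Cv I l Ω (fun n x => fT (F n).e (X n) x a) fun x => fT F₀.e Y x a :=
  cv_of_chart fun p _ => (((Cv.pi fun a => (h a).chart hΩ p).prodMk (hX.chart hΩ p)).post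
    fun x hx => cd_th (finBasis ℝ E) (sp_inc hx.2 (pre_sp F₀.toPre x)) a).congr' (op_src hΩ p)
      (.of_forall fun n x hx => congrFun (fT_chart hx.2 (pre_sp (F n).toPre x) _) a)
      fun x hx => congrFun (fT_chart hx.2 (pre_sp F₀.toPre x) _) a

theorem c (a b k : ι) : Cv I l Ω (fun n => (F n).c a b k) (F₀.c a b k) :=
  (h.fT hΩ ((h a).br (h b) hΩ (fun n => (F n).sm a) (fun n => (F n).sm b) (F₀.sm a) (F₀.sm b))
    k).congr' hΩ (.of_forall fun n x _ => fr_c (F n) a b k x) fun x _ => fr_c F₀ a b k x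

theorem P (a b : ι) : Cv I l Ω (fun n => (F n).P a b) (F₀.P a b) :=
  (h.fT hΩ (h b) a).congr' hΩ (.of_forall fun n x _ => (fr_P (F n) a b x).trans (th_self _ _).symm)
    fun x _ => (fr_P F₀ a b x).trans (th_self _ _).symm

theorem Gam (a b k : ι) : Cv I l Ω (fun n => (F n).Gam a b k) (F₀.Gam a b k) :=
  (((((h.D hΩ (h.P hΩ b k) a).add (h.D hΩ (h.P hΩ a k) b)).sub (h.D hΩ (h.P hΩ a b) k)).add
    (h.c hΩ a b k)).sub (h.c hΩ a k b) |>.sub (h.c hΩ b k a)).mul (Cv.const (2 : ℝ)⁻¹)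

theorem curv {V : Type} [NormedAddCommGroup V] [NormedSpace ℝ V] [FiniteDimensional ℝ V]
    {A : α → ι → M → V →L[ℝ] V} {A₀ : ι → M → V →L[ℝ] V}
    (hA : ∀ a, Cv I l Ω (fun n => A n a) (A₀ a)) (a b : ι) :
    Cv I l Ω (fun n => curv I (F n).e (F n).c (A n) a b) (curv I F₀.e F₀.c A₀ a b) :=
  (((h.D hΩ (hA b) a).sub (h.D hΩ (hA a) b)).add (((hA a).mul (hA b)).sub
    ((hA b).mul (hA a)))).sub (Cv.sum fun k => (h.c hΩ a b k).smul (hA k))

theorem Fg {B : Base M ι lam} {m : Md M ι lam} (hB : B.OK I) (hm : m.OK I B) {W : α → m.Cn}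
    {W₀ : m.Cn} (hW : ∀ a, Cv I l Ω (fun n => W n a) (W₀ a)) (s : ι × ι) :
    Cv I l Ω (fun n x => m.Fg (F n) (W n) x s) fun x => m.Fg F₀ W₀ x s :=
  (Cv.fixed' (Std94.sm_pg hB hm)).app ((h.curv hΩ hW s.1 s.2).clm hsL)

theorem kd {B : Base M ι lam} {m : Md M ι lam} (hB : B.OK I) (hm : m.OK I B) {W : α → m.Cn}
    {W₀ : m.Cn} (hW : ∀ a, Cv I l Ω (fun n => W n a) (W₀ a)) :
    Cv I l Ω (fun n => m.kd B (F n) (W n)) (m.kd B F₀ W₀) :=
  ((Cv.const _).mul (Cv.sum fun s => Cv.sum fun t =>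
    ((Cv.fixed' (hB.so s.1 s.2 t.1 t.2)).mul (Cv.const (2 : ℝ)⁻¹)).mul
      ((h.Fg hΩ hB hm hW s).bil (innerSL ℝ) (h.Fg hΩ hB hm hW t)))).congr' hΩ
    (.of_forall fun n x _ => kd_eq m (F n) (W n) x) fun x _ => kd_eq m F₀ W₀ x

end FCv

/-- the quotient of the Riemannian densities -/
def wq (F F₀ : Fr I M ι) (x : M) : ℝ := rj F.e x / rj F₀.e x

theorem wq_chart (F F₀ : Fr I M ι) {p x : M} (hx : x ∈ (chartAt HM p).source) : wq F F₀ x =
    rjb (finBasis ℝ E) (inc I p F.e x) * (rjb (finBasis ℝ E) (inc I p F₀.e x))⁻¹ := by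
  have h1 := fun F : Fr I M ι => rjb_map (v := atx F.e x) (dch I p x) (finBasis ℝ E) (finBasis ℝ E)
  have h2 := (sp_inc hx (pre_sp F₀.toPre x)).rjb_pos (b := finBasis ℝ E)
  have h3 := h1 F₀
  have h4 : |(LinearMap.toMatrix (finBasis ℝ E) (finBasis ℝ E) (dch I p x)).det|⁻¹ ≠ 0 :=
    fun h => h2.ne' (h3.trans (by rw [h, zero_mul]))
  refine Eq.trans ?_ (congrArg₂ (fun s t : ℝ => s * t⁻¹) (h1 F) h3).symm
  rw [wq, rj, rj, ← div_eq_mul_inv, mul_div_mul_left _ _ h4]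

theorem wq_pos (F F₀ : Fr I M ι) (x : M) : 0 < wq F F₀ x :=
  div_pos (pre_sp F.toPre x).rjb_pos (pre_sp F₀.toPre x).rjb_pos

theorem sm_wq (F F₀ : Fr I M ι) : Sm I (wq F F₀) := fun x => by
  have hx := mem_chart_source HM x
  refine (FSm.mul' (sm_rjb hx (fun a => F.sm a x) (pre_sp F.toPre x)) (FSm.inv' (sm_rjb hx
    (fun a => F₀.sm a x) (pre_sp F₀.toPre x))
    (sp_inc hx (pre_sp F₀.toPre x)).rjb_pos.ne')).congr_of_eventuallyEq ?_
  filter_upwards [chart_source_mem_nhds HM x] with y hy using wq_chart F F₀ hy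

theorem FCv.wq {F : α → Fr I M ι} {F₀ : Fr I M ι} (h : FCv l Ω F F₀) (hΩ : IsOpen Ω) :
    Cv I l Ω (fun n => wq (F n) F₀) fun _ => 1 :=
  cv_of_chart fun p _ => ((((Cv.pi fun a => (h a).chart hΩ p).prodMk (Cv.const (0 : E))).post
    fun x hx => cd_rjb (finBasis ℝ E) (sp_inc hx.2 (pre_sp F₀.toPre x))).mul
      (Cv.fixed (op_src hΩ p) fun x hx => (FSm.inv' (sm_rjb hx.2
        (fun a => F₀.sm a x) (pre_sp F₀.toPre x))
          (sp_inc hx.2 (pre_sp F₀.toPre x)).rjb_pos.ne'))).congr' (op_src hΩ p)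
      (.of_forall fun n _ hx => wq_chart (F n) F₀ hx.2)
      fun x hx => (mul_inv_cancel₀ (sp_inc hx.2 (pre_sp F₀.toPre x)).rjb_pos.ne').symm

variable [BorelSpace M] [T2Space M] [SecondCountableTopology M]

theorem setIntegral_wq {F F₀ : Fr I M ι} (hF : F.IsVol) (h₀ : F₀.IsVol) {K : Set M}
    (hK : MeasurableSet K) (f : M → N) :
    ∫ x in K, f x ∂F.μ = ∫ x in K, wq F F₀ x • f x ∂F₀.μ := by
  rw [vol_eq_wt h₀ hF (sm_wq F F₀).continuous fun x =>
      (div_mul_cancel₀ _ (pre_sp F₀.toPre x).rjb_pos.ne').symm, restrict_withDensity hK,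
    integral_wt _ (sm_wq F F₀).continuous fun x => (wq_pos F F₀ x).le]

/-- integrals over relatively compact sets for a fixed measure -/
theorem cv_setIntegral {f : α → M → N} {g : M → N} (hf : Cv I l Ω f g) (hΩ : IsOpen Ω)
    (μ : Measure M) [IsFiniteMeasureOnCompacts μ] {K s : Set M} (hK : IsCompact K) (hKΩ : K ⊆ Ω)
    (hs : MeasurableSet s) (hsK : s ⊆ K) :
    Tendsto (fun n => ∫ x in s, f n x ∂μ) l (𝓝 (∫ x in s, g x ∂μ)) := by
  have ig : IntegrableOn g s μ := (ContinuousOn.integrableOn_compact hK fun x hx =>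
    (hf.smoothAt hΩ (hKΩ hx)).continuousAt.continuousWithinAt).mono_set hsK
  rw [Metric.tendsto_nhds]
  intro ε hε
  have h0 : 0 ≤ μ.real s := measureReal_nonneg
  filter_upwards [hf.unif hΩ hK hKΩ (ε := ε / (μ.real s + 1)) (by positivity),
    hf.mb.smooth hK hKΩ] with n h1 h2
  rw [dist_eq_norm, ← integral_sub ((ContinuousOn.integrableOn_compact hK fun x hx =>
    (h2 x hx).continuousAt.continuousWithinAt).mono_set hsK) ig]
  refine (norm_setIntegral_le_of_norm_le_const ((measure_mono hsK).trans_lt hK.measure_lt_top)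
    fun x hx => (h1 x (hsK hx)).le).trans_lt ?_
  rw [div_mul_eq_mul_div, div_lt_iff₀ (by positivity)]
  nlinarith

/-- **integrals over relatively compact sets converge** -/
theorem FCv.setIntegral {F : α → Fr I M ι} {F₀ : Fr I M ι} (h : FCv l Ω F F₀) (hΩ : IsOpen Ω)
    (hF : ∀ᶠ n in l, (F n).IsVol) (h₀ : F₀.IsVol) {f : α → M → N} {g : M → N}
    (hf : Cv I l Ω f g) {K s : Set M} (hK : IsCompact K) (hKΩ : K ⊆ Ω) (hs : MeasurableSet s)
    (hsK : s ⊆ K) : Tendsto (fun n => ∫ x in s, f n x ∂(F n).μ) l (𝓝 (∫ x in s, g x ∂F₀.μ)) := by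
  have := cv_setIntegral ((h.wq hΩ).smul hf) hΩ F₀.μ hK hKΩ hs hsK
  simp only [one_smul] at this
  exact this.congr' (hF.mono fun n hn => (setIntegral_wq hn h₀ hs _).symm)

end

end Crest.Agent.X212.Loc66
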