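import Crest.Agent.X212.Loc66.Fcv
import Crest.Agent.X212.Loc66.Tor
import Crest.Agent.X212.Spn45.Conn
import Crest.Agent.X212.Std94.Loc

/-!
# X212 / LOCINT (helper66), part 4: the level lost in a limit is an integer
-/

set_option autoImplicit false
set_option linter.unusedSectionVars false

open Set Function Filter Topology MeasureTheory Module Metric
open scoped ContDiff Manifold InnerProductSpace NNReal

namespace Crest.Agent.X212.Loc66

open An Sob92 Pj41 Met55 Cmp73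
open Wz78 (curv)
open Spn45 (can casL omG)

noncomputable section

variable {E : Type} [NormedAddCommGroup E] [NormedSpace ℝ E] [FiniteDimensional ℝ E]
  [MeasurableSpace E] [BorelSpace E]
  {HM : Type} [TopologicalSpace HM] {I : ModelWithCorners ℝ E HM} [I.Boundaryless]
  {M : Type} [TopologicalSpace M] [ChartedSpace HM M] [IsManifold I ∞ M]
  [MeasurableSpace M] {ι : Type} [Fintype ι] {lam : Type} [Fintype lam]
  {B : Base M ι lam} {O : Set M} {x : M}

section one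
variable {G G' : Geo I M ι lam} {m m' : Md M ι lam} {u : M → CL m.V m'.V} {W V γ : m.Cn}
  {W' X : m'.Cn}

variable (I B m) in
/-- one-forms that commute with the structure -/
structure Cmt (γ : m.Cn) (O : Set M) : Prop where
  sm : ∀ a, ∀ x ∈ O, FSm I (γ a) x
  proj : ∀ a, ∀ x ∈ O, ∑ b, B.P a b x • γ b x = γ a x
  p : ∀ a, ∀ x ∈ O, Commute (γ a x) (m.p x)
  ρ : ∀ a b, ∀ x ∈ O, Commute (γ a x) (m.ρ b x)
  sk : ∀ a, ∀ x ∈ O, Skw (γ a x)
  J : ∀ a, ∀ x ∈ O, Commute (γ a x) m.J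
  j : ∀ a, ∀ x ∈ O, ∀ s, Commute (γ a x) (m.j x s)

theorem cmt_sub (h : ConnOn B G m W O) (k : ConnOn B G m V O) :
    Cmt I B m (fun a x => V a x - W a x) O := by
  have br : ∀ {D A C T R : En (Fin m.N)}, D + (A * T - T * A) = R → D + (C * T - T * C) = R →
      Commute (C - A) T := fun {D A C T R} h1 h2 => by
    rw [Commute, SemiconjBy, sub_mul, mul_sub, ← sub_eq_zero, ← sub_eq_zero.2 (h2.trans h1.symm)]
    abel
  exact ⟨fun a x hx => (k.sm a x hx).sub (h.sm a x hx), fun a x hx => by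
      simp only [smul_sub, Finset.sum_sub_distrib, h.proj a x hx, k.proj a x hx],
    fun a x hx => br (h.par a x hx) (k.par a x hx),
    fun a b x hx => br (h.comp a b x hx) (k.comp a b x hx), fun a x hx v w => by
      simp only [sub_apply, inner_sub_left, inner_sub_right, h.sk a x hx v w, k.sk a x hx v w]; ring,
    fun a x hx => Commute.sub_left (k.J a x hx).symm (h.J a x hx).symm,
    fun a x hx s => br (h.j a x hx s) (k.j a x hx s)⟩

theorem Cmt.mul_p (h : Cmt I B m γ O) (hm : OKOn I B m O) :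
    Cmt I B m (fun a x => γ a x * m.p x) O :=
  ⟨fun a x hx => (h.sm a x hx).clm_comp (hm.sp x hx), fun a x hx => by
      simp only [← smul_mul_assoc, ← Finset.sum_mul, h.proj a x hx],
    fun a x hx => (h.p a x hx).mul_left (Commute.refl _),
    fun a b x hx => (h.ρ a b x hx).mul_left (((hm.cl x hx).pl b).trans ((hm.cl x hx).pr b).symm),
    fun a x hx => Spn45.Sk.mul_sy (h.sk a x hx) (hm.psym x hx) (h.p a x hx),
    fun a x hx => (h.J a x hx).mul_left (hm.Jp x hx).symm,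
    fun a x hx s => (h.j a x hx s).mul_left ((hm.pj x hx s).trans (hm.jp hx s).symm)⟩

theorem connOn_add (h : ConnOn B G m W O) (k : Cmt I B m γ O) :
    ConnOn B G m (fun a x => W a x + γ a x) O := by
  have br : ∀ {A C T : En (Fin m.N)}, Commute C T → (A + C) * T - T * (A + C) = A * T - T * A :=
    fun h => by rw [add_mul, mul_add, h.eq]; abel
  exact ⟨fun a x hx => (h.sm a x hx).add (k.sm a x hx), fun a x hx => by
      simp only [smul_add, Finset.sum_add_distrib, h.proj a x hx, k.proj a x hx],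
    fun a x hx => by rw [br (k.p a x hx), h.par a x hx],
    fun a b x hx => by rw [br (k.ρ a b x hx), h.comp a b x hx], fun a x hx v w => by
      simp only [add_apply, inner_add_left, inner_add_right, h.sk a x hx v w, k.sk a x hx v w]; ring,
    fun a x hx => by rw [mul_add, add_mul, h.J a x hx, (k.J a x hx).eq],
    fun a x hx s => by rw [br (k.j a x hx s), h.j a x hx s]⟩

/-- `W'` minus the connection `W` transported by `u` -/
def dA (F : Fr I M ι) (W : m.Cn) (W' : m'.Cn) (u : M → CL m.V m'.V) (a : ι) (x : M) :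
    En (Fin m'.N) := (F.D a u x + W' a x ∘L u x - u x ∘L W a x) ∘L trn (u x)

/-- the transported connection, equal to `X` off the module -/
def vv (F : Fr I M ι) (W : m.Cn) (W' X : m'.Cn) (u : M → CL m.V m'.V) : m'.Cn := fun a x =>
  X a x - (dA F W W' u a x + (X a x - W' a x) * m'.p x)

theorem conn_vv (h : Iso0 I m m' O u) (hO : IsOpen O) (hm : OKOn I B m O) (hm' : OKOn I B m' O)
    (hG : G.F.P = B.P) (hW : ConnOn B G m W O) (hX : ConnOn B G m' X O) :
    ConnOn B G m' (vv G.F W W' X u) O ∧ Par0 G.F W (vv G.F W W' X u) O u := by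
  obtain ⟨c, p⟩ := conn_push h hO hm hm' hG hW
  have e : ∀ a, ∀ x ∈ O, vv G.F W W' X u a x = X a x + (pshC G.F u W a x - X a x) * m'.p x := by
    intro a x hx
    have : dA G.F W W' u a x = (W' a x - pshC G.F u W a x) * m'.p x := by
      rw [dA, ← (h.iso x hx).tgt, ad_trn, ContinuousLinearMap.mul_def,
        ← ContinuousLinearMap.comp_assoc, ContinuousLinearMap.sub_comp (W' a x),
        ← sub_zero (_ - u x ∘L _), ← p x hx a]
      congr 1; abel
    rw [vv, this, sub_mul, sub_mul, sub_mul]; abel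
  refine ⟨(connOn_add hX ((cmt_sub hX c).mul_p hm')).congr hO e, fun x hx a => ?_⟩
  rw [e a x hx, ← p x hx a, ContinuousLinearMap.add_comp, ContinuousLinearMap.mul_def,
    ContinuousLinearMap.comp_assoc, (h.iso x hx).left, ContinuousLinearMap.sub_comp]
  abel

theorem sm_Fg_on (hB : B.OK I) (hO : IsOpen O) (hm : OKOn I B m O) (hW : ∀ a, FSm I (W a) x)
    (hx : x ∈ O) (F : Fr I M ι) (s : ι × ι) : FSm I (fun y => m.Fg F W y s) x :=
  (Std94.smAt_pg hB ((hO.eventually_mem hx).mono fun _ hy => Std94.pmx_on hm hy)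
    ⟨fun a b => hB.sP a b x, fun a b c d => hB.so a b c d x, hm.sp x hx, fun a => hm.sρ a x hx,
      hm.sj x hx⟩).clm_apply (Wz78.SA.clm hsL ((Wz78.frm F).sCurv hW s.1 s.2))

theorem sm_kd_on (hB : B.OK I) (hO : IsOpen O) (hm : OKOn I B m O) (hW : ∀ a, FSm I (W a) x)
    (hx : x ∈ O) (F : Fr I M ι) : FSm I (m.kd B F W) x := by
  have h1 := sm_Fg_on hB hO hm hW hx F
  rw [show m.kd B F W = _ from funext (kd_eq m F W)]
  refine FSm.mul' contMDiffAt_const (FSm.sum' fun s _ => FSm.sum' fun t _ => FSm.mul' ?_ ?_)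
  · exact FSm.mul' (hB.so _ _ _ _ x) (contMDiffAt_const (c := (2 : ℝ)⁻¹))
  · exact ((innerSL ℝ).contDiff.contDiffAt.comp_contMDiffAt (h1 s)).clm_apply (h1 t)

theorem cont_nF (hB : B.OK I) (hO : IsOpen O) (hm : OKOn I B m O) (hW : ∀ a, FSm I (W a) x)
    (hx : x ∈ O) (F : Fr I M ι) : ContinuousAt (fun y => ‖m.Fg F W y‖ ^ 2) x :=
  (Wz78.SA.toLp (sm_Fg_on hB hO hm hW hx F)).continuousAt.norm.pow 2

theorem norm_Fg_on [T2Space M] (hB : B.OK I) (hG : G.OK B) (hO : IsOpen O) (hW : ConnOn B G m W O)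
    (hx : x ∈ O) : ‖m.Fg G.F W x‖ ^ 2
      = 2 * ‖m.p2 B x (m.Fg G.F W x)‖ ^ 2 + 128 * Real.pi ^ 2 * m.kd B G.F W x := by
  obtain ⟨χ, c1, -, c3, -, c5⟩ := exists_cut (I := I) (isCompact_singleton (x := x)) hO
    (singleton_subset_iff.2 hx)
  have C : Wz78.Con I B.P fun a y => χ y • W a y := ⟨fun a => sm_cut c1 c3 (hW.sm a), fun a y => by
    by_cases h : y ∈ tsupport χ
    · simp only [smul_comm (B.P a _ y), ← Finset.smul_sum, hW.proj a y (c3 h)]
    · simp [image_eq_zero_of_notMem_tsupport h]⟩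
  have e : m.Fg G.F W x = m.Fg G.F (fun a y => χ y • W a y) x :=
    Fg_congr fun a => (c5 x rfl).mono fun y hy => by simp [hy]
  have a2 := Wz78.a2_fix (B := B) (x := x) (T := fun a b => m.Fg G.F W x (a, b))
    (fun a b => by rw [e]; simp only [Md.Fg, (Wz78.glc hG).curv_anti C a, map_neg]) fun a b => by
      rw [e]
      simp only [Md.Fg, ← (Wz78.glc hG).curv_p1 (Wz78.gfrm hG) (Wz78.gsep hG) C a b x, map_sum,
        map_smul]
  have h : m.p2 B x (m.Fg G.F W x) = (1 / 2 : ℝ) • (m.Fg G.F W x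
      + idx (B.st x) (ContinuousLinearMap.id ℝ m.A) (m.Fg G.F W x)) := by
    ext1 s
    simp only [Md.p2, Wz78.idx_apply, Wz78.pg_of_mem (Fg_mem _ _ _ _), Base.sd, div_eq_inv_mul,
      mul_smul, ← Finset.smul_sum, add_smul, Finset.sum_add_distrib, a2, PiLp.smul_apply,
      PiLp.add_apply, mul_one, ContinuousLinearMap.id_apply]
  rw [← real_inner_self_eq_norm_sq (m.p2 B x _), Wz78.inner_p2 hB, Wz78.p2_p2 hB, h,
    real_inner_smul_right, inner_add_right, real_inner_self_eq_norm_sq, Md.kd]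
  field_simp
  ring

end one

variable {α : Type} {l : Filter α} [l.NeBot] {Ω S : Set M}

section can
variable {A : Type} [NormedRing A] [NormedAlgebra ℝ A] {ρ : ι → M → A}

theorem cv_cas (hρ : ∀ a, Sm I (ρ a)) {f : α → M → A} {g : M → A} (h : Cv I l Ω f g) :
    Cv I l Ω (fun n x => casL (fun a => ρ a x) (f n x)) fun x => casL (fun a => ρ a x) (g x) :=
  (Cv.sum fun a => ((Cv.fixed' (hρ a)).mul h).mul (Cv.fixed' (hρ a))).neg

theorem cv_omG (hρ : ∀ a, Sm I (ρ a)) {θ : α → ι → M → A} {θ₀ : ι → M → A}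
    (h : ∀ a, Cv I l Ω (fun n => θ n a) (θ₀ a)) :
    Cv I l Ω (fun n x => omG (fun a => ρ a x) fun a => θ n a x)
      fun x => omG (fun a => ρ a x) fun a => θ₀ a x := by
  have h0 := Cv.sum fun a => (Cv.fixed' (hρ a)).mul (h a)
  have h1 := cv_cas hρ h0
  have h2 := cv_cas hρ h1
  exact ((((cv_cas hρ h2).add (h2.const_smul 8)).add (h1.const_smul 28)).add
    (h0.const_smul 96)).const_smul (-(1 / 384))

theorem cv_can {G : α → Geo I M ι lam} {G₀ : Geo I M ι lam} (h : FCv l Ω (fun n => (G n).F) G₀.F)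
    (hΩ : IsOpen Ω) (ha : ∀ a, Cv I l Ω (fun n => (G n).a a) (G₀.a a)) {m : Md M ι lam}
    (hm : m.OK I B) (a : ι) : Cv I l Ω (fun n => can m (G n) a) (can m G₀ a) := by
  have p : Cv I l Ω (fun _ => m.p) m.p := Cv.fixed' hm.sp
  have r : ∀ b, Cv I l Ω (fun _ => m.ρ b) (m.ρ b) := fun b => Cv.fixed' (hm.sρ b)
  have j : Cv I l Ω (fun _ => m.j) m.j := Cv.fixed' hm.sj
  have w1 := (p.mul (h.D hΩ p a)).sub ((h.D hΩ p a).mul p)
  have w2 := w1.add (cv_omG hm.sρ fun b => ((h.D hΩ (r b) a).add ((w1.mul (r b)).sub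
    ((r b).mul w1))).sub (Cv.sum fun k => (h.Gam hΩ a b k).smul (r k)))
  have js := fun s => j.app (Cv.const s)
  exact w2.sub ((Cv.sum fun b => (((((h.D hΩ j a).app (Cv.const _)).add ((w2.mul (js _)).sub
    ((js _).mul w2))).sub (j.app ((ha a).app (Cv.const _)))).mul
      (js (Spn45.eb lam b)))).const_smul (1 / 4))

end can

/-- `(G n, m n, W n)` converges over `O`, off `S`, to `(G₀, m', W')` -/
structure Bub (l : Filter α) (B : Base M ι lam) (O S : Set M) (G : α → Geo I M ι lam)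
    (G₀ : Geo I M ι lam) (m : α → Md M ι lam)
    (W : ∀ n, (m n).Cn) (m' : Md M ι lam) (W' : m'.Cn) (u : ∀ n, M → CL (m n).V m'.V) : Prop where
  hB : B.OK I
  hG : G₀.OK B
  hm : m'.OK I B
  hW : m'.IsConn B G₀ W'
  hO : IsOpen O
  hS : IsClosed S
  ok : ∀ᶠ n in l, (G n).OK B ∧ OKOn I B (m n) O ∧ ConnOn B (G n) (m n) (W n) O
  F : FCv l O (fun n => (G n).F) G₀.F
  a : ∀ a, Cv I l O (fun n => (G n).a a) (G₀.a a)
  iso : ∀ x ∈ O \ S, ∃ N ∈ 𝓝 x, ∀ᶠ n in l, Iso0 I (m n) m' N (u n)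
  cv : ∀ a, Cv I l (O \ S) (fun n => dA (G n).F (W n) W' (u n) a) fun _ => 0

theorem small_nhds [BorelSpace M] [T2Space M] [SecondCountableTopology M] (h4 : finrank ℝ E = 4)
    (F : Pre I M ι) (p : M) {N : Set M} (hN : N ∈ 𝓝 p) {ε : ℝ} (hε : 0 < ε) :
    ∃ K ∈ 𝓝 p, K ⊆ N ∧ IsCompact K ∧ F.μ.real K < ε := by
  have : Nontrivial E := Module.nontrivial_of_finrank_pos (R := ℝ) (by omega)
  have := Manifold.locallyCompact_of_finiteDimensional I (M := M)
  have := TopologicalSpace.metrizableSpace_of_t3_secondCountable M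
  have h0 : F.μ {p} = 0 := by
    obtain ⟨U, ρ, h, -⟩ := F.dens p
    have h1 : (F.μ.restrict U).map (extChartAt I p) {extChartAt I p p} = 0 := by
      rw [h.2.2.2]
      refine withDensity_absolutelyContinuous _ _ ?_
      unfold leb
      exact le_antisymm ((Measure.restrict_le_self _).trans (measure_singleton _).le) bot_le
    rw [Measure.map_apply_of_aemeasurable (dens_aem h) (measurableSet_singleton _),
      Measure.restrict_apply' h.1.measurableSet] at h1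
    exact measure_mono_null (by rintro _ rfl; exact ⟨rfl, h.2.1⟩) h1
  obtain ⟨U, h1, h2, h3⟩ := Set.exists_isOpen_lt_of_lt (μ := F.μ) {p} (ENNReal.ofReal ε)
    (by rw [h0]; exact ENNReal.ofReal_pos.2 hε)
  obtain ⟨K, k1, k2, k3⟩ := local_compact_nhds (inter_mem hN (h2.mem_nhds (h1 rfl)))
  exact ⟨K, k1, fun _ h => (k2 h).1, k3,
    ENNReal.toReal_lt_of_lt_ofReal ((measure_mono fun _ h => (k2 h).2).trans_lt h3)⟩

namespace Bub
variable {G : α → Geo I M ι lam} {G₀ : Geo I M ι lam} {m : α → Md M ι lam} {W : ∀ n, (m n).Cn}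
  {m' : Md M ι lam} {W' : m'.Cn} {u : ∀ n, M → CL (m n).V m'.V}
  (h : Bub l B O S G G₀ m W m' W' u)
include h

theorem mono {O' : Set M} (hO : IsOpen O') (hs : O' ⊆ O) : Bub l B O' S G G₀ m W m' W' u :=
  ⟨h.hB, h.hG, h.hm, h.hW, hO, h.hS, h.ok.mono fun _ k => ⟨k.1, k.2.1.mono hs, k.2.2.mono hs⟩,
    h.F.mono le_rfl hs, fun a => (h.a a).mono le_rfl hs, fun x hx => h.iso x ⟨hs hx.1, hx.2⟩,
    fun a => (h.cv a).mono le_rfl (sdiff_subset_sdiff_left hs)⟩

theorem op : IsOpen (O \ S) := h.hO.sdiff h.hS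

theorem iso_cpt {L : Set M} (hL : IsCompact L) (hs : L ⊆ O \ S) :
    ∃ A, IsOpen A ∧ L ⊆ A ∧ A ⊆ O \ S ∧ ∀ᶠ n in l, Iso0 I (m n) m' A (u n) := by
  refine hL.induction_on (p := fun L => ∃ A, IsOpen A ∧ L ⊆ A ∧ A ⊆ O \ S ∧
    ∀ᶠ n in l, Iso0 I (m n) m' A (u n)) ⟨∅, isOpen_empty, Subset.rfl, empty_subset _,
      .of_forall fun n => ⟨by simp, by simp, by simp, by simp, by simp⟩⟩
    (fun s t hst ⟨A, a, b, c⟩ => ⟨A, a, hst.trans b, c⟩) ?_ fun x hx => ?_
  · rintro s t ⟨A, a, b, c, d⟩ ⟨A', a', b', c', d'⟩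
    exact ⟨A ∪ A', a.union a', union_subset_union b b', union_subset c c', (d.and d').mono
      fun n k => ⟨fun x hx => hx.elim (k.1.su x) (k.2.su x), fun x hx => hx.elim (k.1.iso x)
        (k.2.iso x), fun x hx => hx.elim (k.1.J x) (k.2.J x), fun x hx => hx.elim (k.1.ρ x)
        (k.2.ρ x), fun x hx => hx.elim (k.1.j x) (k.2.j x)⟩⟩
  · obtain ⟨N, n1, n2⟩ := h.iso x (hs hx)
    have o := isOpen_interior (s := N).inter h.op
    exact ⟨_, mem_nhdsWithin_of_mem_nhds (o.mem_nhds ⟨mem_interior_iff_mem_nhds.2 n1, hs hx⟩), _, o,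
      Subset.rfl, inter_subset_right, n2.mono fun n k => k.mono fun _ hy => interior_subset hy.1⟩

omit h in
variable (G G₀ W') in
/-- the reference connection for `G n` -/
def rf (n : α) : m'.Cn := fun a x => can m' (G n) a x + (W' a x - can m' G₀ a x)

theorem conn_rf {n : α} (hn : (G n).OK B) : ConnOn B (G n) m' (rf G G₀ W' n) univ :=
  connOn_add (IsConn.on (Spn45.isConn_can h.hB hn h.hm) _)
    (cmt_sub (IsConn.on (Spn45.isConn_can h.hB h.hG h.hm) _) (IsConn.on h.hW _))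

theorem cv_rf (a : ι) : Cv I l O (fun n => rf G G₀ W' n a) (W' a) :=
  ((cv_can h.F h.hO h.a h.hm a).add (Cv.fixed' fun x => (h.hW.cc.sm a x).sub
    ((Spn45.isConn_can h.hB h.hG h.hm).cc.sm a x))).congr' h.hO (.of_forall fun _ _ _ => rfl)
    fun x _ => by abel

theorem cv_vv (a : ι) :
    Cv I l (O \ S) (fun n => vv (G n).F (W n) W' (rf G G₀ W' n) (u n) a) (W' a) :=
  have k := (h.cv_rf a).mono le_rfl (sdiff_subset (t := S))
  (k.sub ((h.cv a).add ((k.sub (Cv.fixed' (h.hW.cc.sm a))).mul (Cv.fixed' h.hm.sp)))).congr' h.op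
    (.of_forall fun _ _ _ => rfl) fun x _ => by simp

theorem ev_vv {A : Set M} (hA : IsOpen A) (hs : A ⊆ O)
    (hu : ∀ᶠ n in l, Iso0 I (m n) m' A (u n)) : ∀ᶠ n in l,
      ConnOn B (G n) m' (vv (G n).F (W n) W' (rf G G₀ W' n) (u n)) A ∧
      Par0 (G n).F (W n) (vv (G n).F (W n) W' (rf G G₀ W' n) (u n)) A (u n) :=
  (hu.and h.ok).mono fun _ k => conn_vv k.1 hA (k.2.2.1.mono hs) (OK.on h.hm _) k.2.1.P
    (k.2.2.2.mono hs) ((h.conn_rf k.2.1).mono (subset_univ _))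

theorem cv_of {f f' : α → M → ℝ} {g : M → ℝ} (k : Cv I l (O \ S) f g)
    (e : ∀ n A, IsOpen A → OKOn I B (m n) A → Iso0 I (m n) m' A (u n) →
      ConnOn B (G n) (m n) (W n) A →
      ConnOn B (G n) m' (vv (G n).F (W n) W' (rf G G₀ W' n) (u n)) A →
      Par0 (G n).F (W n) (vv (G n).F (W n) W' (rf G G₀ W' n) (u n)) A (u n) →
      ∀ x ∈ A, f n x = f' n x) : Cv I l (O \ S) f' g := by
  refine Cv.of_local fun x hx => ?_
  obtain ⟨A, a1, a2, a3, a4⟩ := h.iso_cpt isCompact_singleton (singleton_subset_iff.2 hx)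
  have a5 : A ⊆ O := fun _ h => (a3 h).1
  refine ⟨A, a2 rfl, (k.mono le_rfl a3).congr' a1 ?_ fun _ _ => rfl⟩
  filter_upwards [a4, h.ok, h.ev_vv a1 a5 a4] with n k1 k2 k3 y hy
  exact (e n A a1 (k2.2.1.mono a5) k1 (k2.2.2.mono a5) k3.1 k3.2 y hy).symm

/-- the densities converge off `S` -/
theorem kd_cv : Cv I l (O \ S) (fun n => (m n).kd B (G n).F (W n)) (m'.kd B G₀.F W') :=
  h.cv_of ((h.F.mono le_rfl sdiff_subset).kd h.op h.hB h.hm h.cv_vv)
    fun _ _ a b c d e f x hx =>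
      kd_loc c a b (OK.on h.hm _) (fun a => d.sm a x hx) (fun a => e.sm a x hx) f hx

theorem nF_cv : Cv I l (O \ S) (fun n x => ‖(m n).Fg (G n).F (W n) x‖ ^ 2)
    fun x => ‖m'.Fg G₀.F W' x‖ ^ 2 := by
  have k := (h.F.mono le_rfl sdiff_subset).Fg h.op h.hB h.hm h.cv_vv
  refine h.cv_of (f := fun n x => ‖m'.Fg (G n).F (vv (G n).F (W n) W' (rf G G₀ W' n) (u n)) x‖ ^ 2)
    ?_ fun _ _ a b c d e f x hx =>
      norm_Fg_loc c a b (OK.on h.hm _) (fun a => d.sm a x hx) (fun a => e.sm a x hx) f hx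
  simp only [← real_inner_self_eq_norm_sq]
  exact Cv.sum fun s => (k s).bil (innerSL ℝ) (k s)

variable [BorelSpace M] [T2Space M] [SecondCountableTopology M]

theorem int_of {f : α → M → ℝ} {g : M → ℝ} (k : Cv I l (O \ S) f g) {K s : Set M}
    (hK : IsCompact K) (hKO : K ⊆ O \ S) (hs : MeasurableSet s) (hsK : s ⊆ K) :
    Tendsto (fun n => ∫ x in s, f n x ∂(G n).F.μ) l (𝓝 (∫ x in s, g x ∂G₀.F.μ)) :=
  (h.F.mono le_rfl sdiff_subset).setIntegral h.op (h.ok.mono fun _ k => k.1.vol) h.hG.vol k hK hKO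
    hs hsK

theorem ev_int {K : Set M} (hK : IsCompact K) (hKO : K ⊆ O) :
    ∀ᶠ n in l, IntegrableOn ((m n).kd B (G n).F (W n)) K (G n).F.μ :=
  h.ok.mono fun _ k => ContinuousOn.integrableOn_compact hK fun x hx => (sm_kd_on h.hB h.hO k.2.1
    (fun a => k.2.2.sm a x (hKO hx)) (hKO hx) _).continuousAt.continuousWithinAt

/-- **the level in a small ball converges modulo integers** -/
theorem int (kt : KT ι lam) {ψ : E4 → M} (hψ : Bx I ψ) {K : Set E4} (hK : IsCompact K)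
    (hK4 : K ⊆ ball 0 (1 / 4)) (hKO : MapsTo ψ K O) (hS : O ∩ S ⊆ interior (ψ '' K)) :
    ∃ k : α → ℤ, Tendsto (fun n => ∫ x in ψ '' K, (m n).kd B (G n).F (W n) x ∂(G n).F.μ - k n) l
      (𝓝 (∫ x in ψ '' K, m'.kd B G₀.F W' x ∂G₀.F.μ)) := by
  have c0 : IsCompact (ψ '' K) := hK.image_of_continuousOn fun y hy =>
    (hψ.ld y (ball_subset_ball (by norm_num) (hK4 hy))).contMDiffAt.continuousAt.continuousWithinAt
  have k0 : ψ '' K ⊆ O := hKO.image_subset
  obtain ⟨χ, c1, -, c3, -, c5⟩ := exists_cut (I := I) (c0.inter_right h.hS) isOpen_interior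
    fun x hx => hS ⟨k0 hx.1, hx.2⟩
  let U : Set M := {x | ∀ᶠ y in 𝓝 x, χ y = 1}
  have u1 : IsOpen U := isOpen_setOfPred_eventually_nhds
  have u2 : U ⊆ ψ '' K := fun x hx => interior_subset (c3 (subset_tsupport _ (by
    rw [mem_support, hx.self_of_nhds]; exact one_ne_zero)))
  obtain ⟨A, a1, a2, a3, a4⟩ := h.iso_cpt (c0.diff u1) fun x hx =>
    ⟨k0 hx.1, fun k => hx.2 (c5 x ⟨hx.1, k⟩)⟩
  have a5 : A ⊆ O := fun _ h => (a3 h).1
  have o1 : IsOpen (A ∪ U) := a1.union u1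
  have o2 : A ∪ U ⊆ O := union_subset a5 (u2.trans k0)
  have o3 : ψ '' K ⊆ A ∪ U := fun x hx => (em (x ∈ U)).elim .inr fun k => .inl (a2 ⟨hx, k⟩)
  have o4 : (A ∪ U) \ ψ '' K ⊆ A := fun x hx => hx.1.resolve_right fun k => hx.2 (u2 k)
  let X : α → m'.Cn := fun n => mix χ (vv (G n).F (W n) W' (rf G G₀ W' n) (u n)) (rf G G₀ W' n)
  have cX : ∀ a, Cv I l (A ∪ U) (fun n => X n a) (W' a) := fun a => Cv.of_local fun x hx => by
    rcases hx with hx | hx
    · have k := (h.cv_vv a).mono le_rfl a3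
      exact ⟨A, hx, (k.add ((Cv.fixed' c1).smul (((h.cv_rf a).mono le_rfl a5).sub k))).congr' a1
        (.of_forall fun _ _ _ => rfl) fun _ _ => by simp⟩
    · exact ⟨U, hx, ((h.cv_rf a).mono le_rfl (u2.trans k0)).congr' u1
        (.of_forall fun _ y hy => (mix_one hy _ _ a).eq_of_nhds) fun _ _ => rfl⟩
  obtain ⟨k, hk⟩ : ∃ k : α → ℤ, ∀ᶠ n in l,
      ∫ x in ψ '' K, (m n).kd B (G n).F (W n) x ∂(G n).F.μ -
        ∫ x in ψ '' K, m'.kd B (G n).F (X n) x ∂(G n).F.μ = k n := by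
    refine Eventually.choice (r := fun n (k : ℤ) => _ = (k : ℝ)) ?_
    filter_upwards [a4, h.ok, h.ev_vv a1 a5 a4] with n k1 k2 k3
    exact locint kt hψ h.hB k2.1 hK hK4 o1 (fun y hy => o3 ⟨y, hy, rfl⟩) (k2.2.1.mono o2)
      (OK.on h.hm _) (k2.2.2.mono o2) (connOn_mix c1 a1 isOpen_univ k3.1 (h.conn_rf k2.1)
        (fun x hx => hx.imp_right fun k => ⟨trivial, k⟩) fun _ _ => .inl trivial) (k1.mono o4)
      fun x hx a => by
        simp only [X, (mix_zero (fun k => hx.2 (interior_subset (c3 k))) _ _ a).eq_of_nhds]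
        exact k3.2 x (o4 hx) a
  refine ⟨k, ((h.F.mono le_rfl o2).setIntegral o1 (h.ok.mono fun _ k => k.1.vol) h.hG.vol
    ((h.F.mono le_rfl o2).kd o1 h.hB h.hm cX) c0 o3 c0.measurableSet Subset.rfl).congr' ?_⟩
  exact hk.mono fun n hn => by simp only [← hn]; ring

/-- the loss does not depend on the compact neighbourhood -/
theorem loss_congr {K K' : Set M} (hK : IsCompact K) (hK' : IsCompact K') (hO : K ⊆ O)
    (hO' : K' ⊆ O) (hS : K ∩ S ⊆ interior K') (hS' : K' ∩ S ⊆ interior K) {c : ℝ}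
    (k : Tendsto (fun n => ∫ x in K, (m n).kd B (G n).F (W n) x ∂(G n).F.μ) l
      (𝓝 (∫ x in K, m'.kd B G₀.F W' x ∂G₀.F.μ + c))) :
    Tendsto (fun n => ∫ x in K', (m n).kd B (G n).F (W n) x ∂(G n).F.μ) l
      (𝓝 (∫ x in K', m'.kd B G₀.F W' x ∂G₀.F.μ + c)) := by
  have t : ∀ {K K' : Set M}, IsCompact K → IsCompact K' → K ⊆ O → K ∩ S ⊆ interior K' → _ :=
    fun {K K'} hK hK' hO hS => h.int_of h.kd_cv (hK.diff (isOpen_interior (s := K')))
      (fun x hx => ⟨hO hx.1, fun k => hx.2 (hS ⟨hx.1, k⟩)⟩)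
      (hK.measurableSet.diff hK'.measurableSet) (sdiff_subset_sdiff_right interior_subset)
  have e : ∀ {f : M → ℝ} {μ : Measure M}, IntegrableOn f K μ → IntegrableOn f K' μ →
      ∫ x in K', f x ∂μ = ∫ x in K, f x ∂μ - ∫ x in K \ K', f x ∂μ + ∫ x in K' \ K, f x ∂μ :=
    fun h1 h2 => by
      rw [← integral_inter_add_sdiff hK'.measurableSet h1,
        ← integral_inter_add_sdiff hK.measurableSet h2, inter_comm]; ring
  have i := fun {K : Set M} (hK : IsCompact K) => (sm_kd h.hB h.hG h.hm h.hW).continuous.continuousOn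
    |>.integrableOn_compact (μ := G₀.F.μ) hK
  rw [e (i hK) (i hK')]
  convert ((k.sub (t hK hK' hO hS)).add (t hK' hK hO' hS')).congr' ?_ using 2
  · ring
  · filter_upwards [h.ev_int hK hO, h.ev_int hK' hO'] with n h1 h2 using (e h1 h2).symm

omit h in
variable (G W) in
/-- the energy of a set -/
def en (n : α) (N : Set M) : ENNReal :=
  ∫⁻ x in N, ENNReal.ofReal (‖(m n).Fg (G n).F (W n) x‖ ^ 2) ∂(G n).F.μ

omit h in
variable (B G W) in
/-- the self-dual energy of a set -/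
def ep (n : α) (N : Set M) : ENNReal :=
  ∫⁻ x in N, ENNReal.ofReal (‖(m n).p2 B x ((m n).Fg (G n).F (W n) x)‖ ^ 2) ∂(G n).F.μ

omit h in
variable (B l G W) in
/-- the self-dual energy does not concentrate at `p` -/
def Sd (p : M) : Prop := ∀ ε > 0, ∃ N ∈ 𝓝 p, ∀ᶠ n in l, ep B G W n N ≤ ENNReal.ofReal ε

omit h in
variable (l G W) in
/-- the energy is bounded near `p` -/
def Eb (p : M) : Prop := ∃ N ∈ 𝓝 p, ∃ C : ℝ≥0, ∀ᶠ n in l, en G W n N ≤ C

omit h in
variable (l G W) in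
/-- the energy concentrates at `p` -/
def Cc (p : M) : Prop := ∃ ε : ℝ≥0, 0 < ε ∧ ∀ N ∈ 𝓝 p, ∀ᶠ n in l, ε ≤ en G W n N

theorem en_kd {K : Set M} (hK : IsCompact K) (hKO : K ⊆ O) : ∀ᶠ n in l, en G W n K ≠ ⊤ ∧
    (en G W n K).toReal = 2 * (ep B G W n K).toReal +
      128 * Real.pi ^ 2 * ∫ x in K, (m n).kd B (G n).F (W n) x ∂(G n).F.μ := by
  filter_upwards [h.ok, h.ev_int hK hKO] with n h2 h3
  have i : IntegrableOn (fun x => ‖(m n).Fg (G n).F (W n) x‖ ^ 2) K (G n).F.μ :=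
    ContinuousOn.integrableOn_compact hK fun x hx => (cont_nF h.hB h.hO h2.2.1
      (fun a => h2.2.2.sm a x (hKO hx)) (hKO hx) _).continuousWithinAt
  have e := fun x hx => norm_Fg_on h.hB h2.1 h.hO h2.2.2 (hKO (a := x) hx)
  have i2 : IntegrableOn (fun x => ‖(m n).p2 B x ((m n).Fg (G n).F (W n) x)‖ ^ 2) K (G n).F.μ :=
    IntegrableOn.congr_fun ((i.sub (h3.const_mul (128 * Real.pi ^ 2))).const_mul (1 / 2))
      (fun x hx => by simp only [Pi.sub_apply, e x hx]; ring) hK.measurableSet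
  rw [en, ep, ← ofReal_integral_eq_lintegral_ofReal i (.of_forall fun x => by positivity),
    ← ofReal_integral_eq_lintegral_ofReal i2 (.of_forall fun x => by positivity),
    ENNReal.toReal_ofReal (integral_nonneg fun x => by positivity),
    ENNReal.toReal_ofReal (integral_nonneg fun x => by positivity), ← integral_const_mul,
    ← integral_const_mul, ← integral_add (i2.const_mul _) (h3.const_mul _)]
  exact ⟨ENNReal.ofReal_ne_top, setIntegral_congr_fun hK.measurableSet e⟩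

theorem vol {K : Set M} (hK : IsCompact K) (hKO : K ⊆ O) :
    Tendsto (fun n => (G n).F.μ.real K) l (𝓝 (G₀.F.μ.real K)) := by
  simpa using h.F.setIntegral h.hO (h.ok.mono fun _ k => k.1.vol) h.hG.vol (Cv.const (1 : ℝ)) hK hKO
    hK.measurableSet Subset.rfl

/-- a lower bound of the energy of small balls bounds the loss from below -/
theorem loss_ge (h4 : finrank ℝ E = 4) {p : M} (hp : p ∈ O) (hS : ∀ᶠ y in 𝓝 p, y ∈ S → y = p)
    (hC : Sd B l G W p) {e c : ℝ} (he : ∀ N ∈ 𝓝 p, ∀ᶠ n in l, ENNReal.ofReal e ≤ en G W n N)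
    (hc : ∀ K ∈ 𝓝 p, IsCompact K → K ⊆ O → (∀ y ∈ K, y ∈ S → y = p) →
      Tendsto (fun n => ∫ x in K, (m n).kd B (G n).F (W n) x ∂(G n).F.μ) l
        (𝓝 (∫ x in K, m'.kd B G₀.F W' x ∂G₀.F.μ + c))) : e ≤ 128 * Real.pi ^ 2 * c := by
  set D := |m'.kd B G₀.F W' p| + 1
  have hD : ∀ᶠ y in 𝓝 p, ‖m'.kd B G₀.F W' y‖ ≤ D :=
    (sm_kd h.hB h.hG h.hm h.hW p).continuousAt.norm.eventually (ge_mem_nhds (lt_add_one _))
  refine le_of_forall_pos_le_add fun ε hε => ?_
  have c0 : 0 < 128 * Real.pi ^ 2 * D := by positivity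
  obtain ⟨N, hN, hb⟩ := hC (ε / 4) (by positivity)
  obtain ⟨K, k1, k2, k3, k4⟩ := small_nhds h4 G₀.F.toPre p
    (inter_mem (inter_mem (h.hO.mem_nhds hp) hS) (inter_mem hN hD)) (div_pos (half_pos hε) c0)
  have k5 : K ⊆ O := fun _ h => (k2 h).1.1
  have t := ((hc K k1 k3 k5 fun _ h => (k2 h).1.2).const_mul (128 * Real.pi ^ 2)).add_const (ε / 2)
  have t2 := ge_of_tendsto (b := e) t (by
    filter_upwards [he K k1, h.en_kd k3 k5, hb] with n a b c
    have := (ENNReal.ofReal_le_iff_le_toReal b.1).1 a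
    have := ENNReal.toReal_le_of_le_ofReal (by positivity)
      ((lintegral_mono_set fun _ hy => (k2 hy).2.1).trans c)
    change (ep B G W n K).toReal ≤ _ at this
    linarith [b.2])
  have t3 := (le_abs_self _).trans (norm_setIntegral_le_of_norm_le_const (μ := G₀.F.μ)
    k3.measure_lt_top fun x hx => (k2 hx).2.2)
  rw [lt_div_iff₀ c0] at k4
  nlinarith [mul_le_mul_of_nonneg_left t3 (show 0 ≤ 128 * Real.pi ^ 2 by positivity)]

end Bub

theorem int_lim {𝒰 : Ultrafilter α} {f : α → ℝ} {k : α → ℤ} {c R : ℝ}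
    (h : Tendsto (fun n => f n - k n) 𝒰 (𝓝 c)) (hR : ∀ᶠ n in (𝒰 : Filter α), |f n| ≤ R) :
    ∃ j : ℤ, Tendsto f 𝒰 (𝓝 (c + j)) := by
  obtain ⟨j, -, hj⟩ := (𝒰.eventually_exists_mem_iff (P := fun j n => k n = j)
    (Set.finite_Icc (-⌈R + |c| + 1⌉) ⌈R + |c| + 1⌉)).1 (by
      filter_upwards [hR, h.abs.eventually (gt_mem_nhds (lt_add_one |c|))] with n a b
      have h1 : |(k n : ℝ)| ≤ ⌈R + |c| + 1⌉ := by
        have := abs_sub (f n) (f n - k n)
        rw [sub_sub_cancel] at this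
        linarith [Int.le_ceil (R + |c| + 1)]
      exact ⟨k n, abs_le.1 (by exact_mod_cast h1), rfl⟩)
  exact ⟨j, (h.add_const (j : ℝ)).congr' (hj.mono fun n hn => by simp [hn])⟩

namespace Bub
variable {𝒰 : Ultrafilter α} {G : α → Geo I M ι lam} {G₀ : Geo I M ι lam} {m : α → Md M ι lam}
  {W : ∀ n, (m n).Cn} {m' : Md M ι lam} {W' : m'.Cn} {u : ∀ n, M → CL (m n).V m'.V}
  (h : Bub 𝒰 B O S G G₀ m W m' W' u) [BorelSpace M] [T2Space M] [SecondCountableTopology M]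
include h

theorem bdd {K : Set M} (hK : IsCompact K) (hKO : K ⊆ O) {R : ℝ≥0}
    (hC : ∀ᶠ n in (𝒰 : Filter α), ep B G W n K ≤ ENNReal.ofReal 1)
    (hR : ∀ᶠ n in (𝒰 : Filter α), en G W n K ≤ R) : ∃ R', ∀ᶠ n in (𝒰 : Filter α),
      |∫ x in K, (m n).kd B (G n).F (W n) x ∂(G n).F.μ| ≤ R' := by
  have c0 : 0 < 128 * Real.pi ^ 2 := by positivity
  refine ⟨(R + 2) / (128 * Real.pi ^ 2), ?_⟩
  filter_upwards [hR, h.en_kd hK hKO, hC] with n a b c
  have h1 : (en G W n K).toReal ≤ R := ENNReal.toReal_le_coe_of_le_coe a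
  have h2 := ENNReal.toReal_le_of_le_ofReal zero_le_one c
  rw [le_div_iff₀' c0, ← abs_of_pos c0, ← abs_mul, abs_le]
  constructor <;> linarith [b.2, ENNReal.toReal_nonneg (a := en G W n K), R.2,
    ENNReal.toReal_nonneg (a := ep B G W n K)]

/-- **LOSS**: the level lost at an isolated point of `S` is a natural number, positive if the
energy concentrates -/
theorem loss (kt : KT ι lam) (h4 : finrank ℝ E = 4) {p : M} (hp : p ∈ O) (hS : ∀ᶠ y in 𝓝 p, y ∈ S → y = p)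
    (hC : Sd B 𝒰 G W p) (hE : Eb 𝒰 G W p) : ∃ k : ℕ, (Cc 𝒰 G W p → 1 ≤ k) ∧
      ∀ K ∈ 𝓝 p, IsCompact K → K ⊆ O → (∀ y ∈ K, y ∈ S → y = p) →
        Tendsto (fun n => ∫ x in K, (m n).kd B (G n).F (W n) x ∂(G n).F.μ) 𝒰
          (𝓝 (∫ x in K, m'.kd B G₀.F W' x ∂G₀.F.μ + k)) := by
  obtain ⟨N', hb, ha⟩ := hC 1 one_pos
  obtain ⟨N, hN, R, hR⟩ := hE
  obtain ⟨ψ, hψ, rfl, hm⟩ := exists_bx (I := I) h4 p
    (inter_mem (inter_mem (h.hO.mem_nhds hp) hS.eventually_nhds) (inter_mem hb hN))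
  have b1 : closedBall (0 : E4) (1 / 8) ⊆ closedBall 0 1 := closedBall_subset_closedBall (by norm_num)
  have b2 : closedBall (0 : E4) (1 / 8) ⊆ ball 0 (1 / 4) := closedBall_subset_ball (by norm_num)
  have k0 := (hm.mono_left b1).image_subset
  have c0 : IsCompact (ψ '' closedBall 0 (1 / 8)) := (isCompact_closedBall _ _).image_of_continuousOn
    fun y hy => (hψ.ld y (ball_subset_ball (by norm_num)
      (b2 hy))).contMDiffAt.continuousAt.continuousWithinAt
  have n0 : ψ '' closedBall 0 (1 / 8) ∈ 𝓝 (ψ 0) := by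
    have hl := hψ.ld 0 (mem_ball_self one_pos)
    have h1 := hl.localInverse_contMDiffAt.continuousAt
    rw [ContinuousAt, hl.localInverse_left_inv hl.localInverse_mem_target] at h1
    filter_upwards [h1 (closedBall_mem_nhds 0 (by norm_num : (0 : ℝ) < 1 / 8)),
      hl.localInverse_eventuallyEq_right] with y a b using ⟨_, a, b⟩
  obtain ⟨k, hk⟩ := (h.mono (h.hO.inter (isOpen_setOfPred_eventually_nhds
    (p := fun y => y ∈ S → y = ψ 0))) inter_subset_left).int kt hψ (isCompact_closedBall _ _) b2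
    (fun y hy => (hm (b1 hy)).1) fun y hy => by
      rw [hy.1.2.self_of_nhds hy.2]; exact mem_interior_iff_mem_nhds.2 n0
  obtain ⟨R', hR'⟩ := h.bdd c0 (fun _ k => (k0 k).1.1)
    (ha.mono fun n hn => (lintegral_mono_set fun _ k => (k0 k).2.1).trans hn)
    (hR.mono fun n hn => (lintegral_mono_set fun _ k => (k0 k).2.2).trans hn)
  obtain ⟨j, hj⟩ := int_lim hk hR'
  have hc : ∀ K ∈ 𝓝 (ψ 0), IsCompact K → K ⊆ O → (∀ y ∈ K, y ∈ S → y = ψ 0) → _ :=
    fun K k1 k2 k3 k4 => h.loss_congr c0 k2 (fun _ k => (k0 k).1.1) k3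
      (fun y hy => by rw [(k0 hy.1).1.2.self_of_nhds hy.2]; exact mem_interior_iff_mem_nhds.2 k1)
      (fun y hy => by rw [k4 y hy.1 hy.2]; exact mem_interior_iff_mem_nhds.2 n0) hj
  have c1 : 0 < 128 * Real.pi ^ 2 := by positivity
  have j0 : 0 ≤ j := by
    have := h.loss_ge h4 hp hS hC (e := 0) (fun _ _ => .of_forall fun _ => by simp) hc
    exact_mod_cast (mul_nonneg_iff_of_pos_left c1).1 this
  lift j to ℕ using j0
  refine ⟨j, fun ⟨ε, e0, e1⟩ => ?_, by simpa using hc⟩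
  have := h.loss_ge h4 hp hS hC (e := ε) (by simpa using e1) hc
  have : (0 : ℝ) < (j : ℤ) := (mul_pos_iff_of_pos_left c1).1 (lt_of_lt_of_le e0 this)
  exact_mod_cast this

/-- **KAP-LIM**: the level of a compact set -/
theorem kap_lim (kt : KT ι lam) (h4 : finrank ℝ E = 4) {L : Set M} (hL : IsCompact L) (hLO : L ⊆ O)
    (hf : (O ∩ S).Finite) (hS : L ∩ S ⊆ interior L) (hC : ∀ p ∈ L ∩ S, Sd B 𝒰 G W p)
    (hE : ∀ p ∈ L ∩ S, Eb 𝒰 G W p) : ∃ k : ℕ, {p ∈ L ∩ S | Cc 𝒰 G W p}.ncard ≤ k ∧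
      (L ∩ S = ∅ → k = 0) ∧
      Tendsto (fun n => ∫ x in L, (m n).kd B (G n).F (W n) x ∂(G n).F.μ) 𝒰
        (𝓝 (∫ x in L, m'.kd B G₀.F W' x ∂G₀.F.μ + k)) := by
  classical
  have f1 : (L ∩ S).Finite := hf.subset (inter_subset_inter_left _ hLO)
  have iso : ∀ p, ∀ᶠ y in 𝓝 p, y ∈ O → y ∈ S → y = p := fun p =>
    Eventually.mono (p := fun y => y ∉ (O ∩ S) \ {p})
      ((hf.subset (t := (O ∩ S) \ {p}) sdiff_subset).isClosed.isOpen_compl.mem_nhds fun k => k.2 rfl)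
      fun y hy a b => by_contra fun c => hy ⟨⟨a, b⟩, c⟩
  have iso' : ∀ p ∈ L ∩ S, ∀ᶠ y in 𝓝 p, y ∈ S → y = p := fun p hp =>
    ((iso p).and (h.hO.mem_nhds (hLO hp.1))).mono fun y hy => hy.1 hy.2
  choose! k k1 k2 using fun p (hp : p ∈ L ∩ S) =>
    h.loss kt h4 (hLO hp.1) (iso' p hp) (hC p hp) (hE p hp)
  have := Manifold.locallyCompact_of_finiteDimensional I (M := M)
  obtain ⟨U, u1, u2⟩ := f1.t2_separation
  choose! K c1 c2 c3 using fun p (hp : p ∈ L ∩ S) => local_compact_nhds (inter_mem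
    ((u1 p).2.mem_nhds (u1 p).1) (inter_mem (mem_interior_iff_mem_nhds.1 (hS hp)) (iso' p hp)))
  let T := f1.toFinset
  have hT : ∀ p, p ∈ T ↔ p ∈ L ∩ S := fun p => f1.mem_toFinset
  have m1 : ∀ p ∈ T, MeasurableSet (K p) := fun p hp => (c3 p ((hT p).1 hp)).measurableSet
  have s1 : ∀ p ∈ T, K p ⊆ L := fun p hp _ hy => (c2 p ((hT p).1 hp) hy).2.1
  have m2 : MeasurableSet (⋃ p ∈ T, K p) := T.measurableSet_biUnion m1
  have e : ∀ {f : M → ℝ} {μ : Measure M}, IntegrableOn f L μ → ∫ x in L, f x ∂μ =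
      ∑ p ∈ T, ∫ x in K p, f x ∂μ + ∫ x in L \ ⋃ p ∈ T, K p, f x ∂μ := fun hi => by
    rw [← integral_inter_add_sdiff m2 hi, inter_eq_right.2 (iUnion₂_subset s1),
      integral_biUnion_finset T m1 (fun p hp q hq hn => (u2 ((hT p).1 hp) ((hT q).1 hq) hn).mono
        (fun _ hy => (c2 p ((hT p).1 hp) hy).1) fun _ hy => (c2 q ((hT q).1 hq) hy).1)
        fun p hp => hi.mono_set (s1 p hp)]
  refine ⟨∑ p ∈ T, k p, ?_, fun h0 => Finset.sum_eq_zero fun p hp => absurd ((hT p).1 hp)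
    (by simp [h0]), ?_⟩
  · rw [show {p ∈ L ∩ S | Cc 𝒰 G W p} = ↑(T.filter (Cc 𝒰 G W)) by ext p; simp [hT],
      ncard_coe_finset, Finset.card_eq_sum_ones]
    exact (Finset.sum_le_sum fun p hp => k1 p ((hT p).1 (Finset.mem_filter.1 hp).1)
      (Finset.mem_filter.1 hp).2).trans (Finset.sum_le_sum_of_subset (Finset.filter_subset _ _))
  have t1 := tendsto_finsetSum T fun p hp => k2 p ((hT p).1 hp) (K p) (c1 p ((hT p).1 hp))
    (c3 p ((hT p).1 hp)) ((s1 p hp).trans hLO) fun y hy => (c2 p ((hT p).1 hp) hy).2.2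
  have t2 := h.int_of h.kd_cv (hL.diff (isOpen_biUnion fun p (_ : p ∈ T) =>
    isOpen_interior (s := K p))) (fun x hx => ⟨hLO hx.1, fun k => hx.2 (mem_biUnion
      ((hT x).2 ⟨hx.1, k⟩) (mem_interior_iff_mem_nhds.2 (c1 x ⟨hx.1, k⟩)))⟩)
    (hL.measurableSet.diff m2) (sdiff_subset_sdiff_right (iUnion₂_mono fun _ _ => interior_subset))
  rw [e ((sm_kd h.hB h.hG h.hm h.hW).continuous.continuousOn.integrableOn_compact hL)]
  convert (t1.add t2).congr' ((h.ev_int hL hLO).mono fun n hn => (e hn).symm) using 2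
  rw [Finset.sum_add_distrib, Nat.cast_sum]; ring

end Bub

end

end Crest.Agent.X212.Loc66
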