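import Crest.Agent.X212.Loc66.Tor
import Crest.Agent.X212.Spn45.Conn
import Crest.Agent.X212.Idg99.Chr

/-! X212 / LOCINT (helper66): the torus input -/

set_option autoImplicit false

namespace Crest.Agent.X212.Loc66

variable {ι lam : Type} [Fintype ι] [Fintype lam]

theorem kt : KT ι lam := fun _ _ hB hG =>
  ⟨fun _ _ _ _ H H' C C' => Idg99.kap_sub hB hG H C (by simp) H' C',
    fun _ H => Spn45.exists_conn hB hG H⟩

end Crest.Agent.X212.Loc66
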